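import Vale.Agent.P158.Main2
import Vale.Agent.P158.Bi

/-!
P158: for every line, almost surely no geodesic ray and no end of a bigeodesic stays in a
neighbourhood of growing width of the line.
-/

namespace Vale.Agent.Results.P158.AllLines

open Vale.Agent.P158 MeasureTheory ProbabilityTheory Filter

theorem result (G : Measure ℝ) [IsProbabilityMeasure G] (hG0 : G (Set.Iio 0) = 0)
    (hGa : ∀ x, G {x} = 0) :
    ∃ f : ℕ → ℕ, Tendsto f atTop atTop ∧
      ∀ (Ω : Type) [MeasurableSpace Ω] (P : Measure Ω) [IsProbabilityMeasure P]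
        (t : Sym2 V → Ω → ℝ), (∀ e, Measurable (t e)) → (∀ e, P.map (t e) = G) → iIndepFun t P →
        ∀ α : ℝ, |α| ≤ 1 → ∀ᵐ ω ∂P,
          (∀ v : ℕ → V, IsRay (fun e => t e ω) v → ∀ c : ℝ,
            (∃ᶠ i in atTop, (f (v i).1.natAbs : ℝ) < |((v i).2 : ℝ) - (α * (v i).1 + c)|) ∧
            (∃ᶠ i in atTop, (f (v i).2.natAbs : ℝ) < |((v i).1 : ℝ) - (α * (v i).2 + c)|)) ∧
          (∀ v : ℤ → V, IsBigeodesic (fun e => t e ω) v → ∀ c : ℝ,
            (∃ᶠ i in atTop, (f (v i).1.natAbs : ℝ) < |((v i).2 : ℝ) - (α * (v i).1 + c)|) ∧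
            (∃ᶠ i in atTop, (f (v i).2.natAbs : ℝ) < |((v i).1 : ℝ) - (α * (v i).2 + c)|) ∧
            (∃ᶠ i in atBot, (f (v i).1.natAbs : ℝ) < |((v i).2 : ℝ) - (α * (v i).1 + c)|) ∧
            (∃ᶠ i in atBot, (f (v i).2.natAbs : ℝ) < |((v i).1 : ℝ) - (α * (v i).2 + c)|)) := by
  obtain ⟨f, hf, h⟩ := main2 hG0 hGa
  refine ⟨f, hf, fun Ω _ P _ t hm hl hi α hα => ?_⟩
  filter_upwards [h Ω P t hm hl hi α hα] with ω hω
  have key : ∀ v : ℕ → V, IsRay (fun e => t e ω) v → ∀ c : ℝ,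
      (∃ᶠ i in atTop, (f (v i).1.natAbs : ℝ) < |((v i).2 : ℝ) - (α * (v i).1 + c)|) ∧
      (∃ᶠ i in atTop, (f (v i).2.natAbs : ℝ) < |((v i).1 : ℝ) - (α * (v i).2 + c)|) := by
    intro v hv c
    obtain ⟨C, hC⟩ := exists_nat_ge |c|
    obtain ⟨h1, h2⟩ := hω v hv C
    refine ⟨h1.mono fun i hi => ?_, h2.mono fun i hi => ?_⟩
    · have h3 : |((v i).2 : ℝ) - α * (v i).1| ≤ |((v i).2 : ℝ) - (α * (v i).1 + c)| + |c| := by
        have := abs_add_le (((v i).2 : ℝ) - (α * (v i).1 + c)) c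
        have h4 : ((v i).2 : ℝ) - (α * (v i).1 + c) + c = (v i).2 - α * (v i).1 := by ring
        rwa [h4] at this
      linarith
    · have h3 : |((v i).1 : ℝ) - α * (v i).2| ≤ |((v i).1 : ℝ) - (α * (v i).2 + c)| + |c| := by
        have := abs_add_le (((v i).1 : ℝ) - (α * (v i).2 + c)) c
        have h4 : ((v i).1 : ℝ) - (α * (v i).2 + c) + c = (v i).1 - α * (v i).2 := by ring
        rwa [h4] at this
      linarith
  refine ⟨key, fun v hv c => ?_⟩
  obtain ⟨h1, h2⟩ := ends hv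
  obtain ⟨h3, h4⟩ := key _ h1 c
  obtain ⟨h5, h6⟩ := key _ h2 c
  have hcast : Tendsto (fun i : ℕ => (i : ℤ)) atTop atTop := tendsto_natCast_atTop_atTop
  have hneg : Tendsto (fun i : ℕ => -(i : ℤ)) atTop atBot :=
    tendsto_neg_atTop_atBot.comp hcast
  exact ⟨hcast.frequently h3, hcast.frequently h4, hneg.frequently h5, hneg.frequently h6⟩

end Vale.Agent.Results.P158.AllLines
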