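import Vale.Agent.P158.W8

/-!
P158: almost surely no geodesic ray and no end of a bigeodesic stays in the neighbourhood of ANY
line (random slope and offset allowed) of width a small multiple of the square root of the logarithm.
-/

namespace Vale.Agent.Results.P158.AllLinesAtOnce

open Vale.Agent.P158 MeasureTheory ProbabilityTheory Filter

theorem result (G : Measure ℝ) [IsProbabilityMeasure G] (hG0 : G (Set.Iio 0) = 0)
    (hGa : ∀ x, G {x} = 0) :
    ∃ κ : ℝ, 0 < κ ∧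
      ∀ (Ω : Type) [MeasurableSpace Ω] (P : Measure Ω) [IsProbabilityMeasure P]
        (t : Sym2 V → Ω → ℝ), (∀ e, Measurable (t e)) → (∀ e, P.map (t e) = G) → iIndepFun t P →
        ∀ᵐ ω ∂P,
          (∀ v : ℕ → V, IsRay (fun e => t e ω) v → ∀ α c : ℝ, |α| ≤ 1 →
            (∃ᶠ i in atTop,
              κ * √(Real.log (|((v i).1 : ℝ)| + 2)) < |((v i).2 : ℝ) - (α * (v i).1 + c)|) ∧
            (∃ᶠ i in atTop,
              κ * √(Real.log (|((v i).2 : ℝ)| + 2)) < |((v i).1 : ℝ) - (α * (v i).2 + c)|)) ∧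
          (∀ v : ℤ → V, IsBigeodesic (fun e => t e ω) v → ∀ α c : ℝ, |α| ≤ 1 →
            (∃ᶠ i in atTop,
              κ * √(Real.log (|((v i).1 : ℝ)| + 2)) < |((v i).2 : ℝ) - (α * (v i).1 + c)|) ∧
            (∃ᶠ i in atTop,
              κ * √(Real.log (|((v i).2 : ℝ)| + 2)) < |((v i).1 : ℝ) - (α * (v i).2 + c)|) ∧
            (∃ᶠ i in atBot,
              κ * √(Real.log (|((v i).1 : ℝ)| + 2)) < |((v i).2 : ℝ) - (α * (v i).1 + c)|) ∧
            (∃ᶠ i in atBot,
              κ * √(Real.log (|((v i).2 : ℝ)| + 2)) < |((v i).1 : ℝ) - (α * (v i).2 + c)|)) := by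
  obtain ⟨κ, hκ, h⟩ := main5 hG0 hGa
  refine ⟨κ, hκ, fun Ω _ P _ t hm hl hi => ?_⟩
  filter_upwards [h P t hm hl hi] with ω hω
  refine ⟨hω, fun v hv α c hα => ?_⟩
  obtain ⟨h1, h2⟩ := ends hv
  obtain ⟨h3, h4⟩ := hω _ h1 α c hα
  obtain ⟨h5, h6⟩ := hω _ h2 α c hα
  have hcast : Tendsto (fun i : ℕ => (i : ℤ)) atTop atTop := tendsto_natCast_atTop_atTop
  have hneg : Tendsto (fun i : ℕ => -(i : ℤ)) atTop atBot :=
    tendsto_neg_atTop_atBot.comp hcast
  exact ⟨hcast.frequently h3, hcast.frequently h4, hneg.frequently h5, hneg.frequently h6⟩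

end Vale.Agent.Results.P158.AllLinesAtOnce
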