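import Vale.Agent.P158.Main
import Vale.Agent.P158.Bi

/-!
P158: almost surely no geodesic ray and no end of a bigeodesic stays in a growing neighbourhood of
a coordinate line.
-/

namespace Vale.Agent.Results.P158.CoordinateLines

open Vale.Agent.P158 MeasureTheory ProbabilityTheory Filter

theorem result (G : Measure ℝ) [IsProbabilityMeasure G] (hG0 : G (Set.Iio 0) = 0)
    (hGa : ∀ x, G {x} = 0) :
    ∃ f : ℕ → ℕ, Tendsto f atTop atTop ∧
      ∀ (Ω : Type) [MeasurableSpace Ω] (P : Measure Ω) [IsProbabilityMeasure P]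
        (t : Sym2 V → Ω → ℝ), (∀ e, Measurable (t e)) → (∀ e, P.map (t e) = G) → iIndepFun t P →
        ∀ᵐ ω ∂P,
          (∀ v : ℕ → V, IsRay (fun e => t e ω) v → ∀ c : V,
            (∃ᶠ i in atTop, f ((v i).1 - c.1).natAbs < ((v i).2 - c.2).natAbs) ∧
            (∃ᶠ i in atTop, f ((v i).2 - c.2).natAbs < ((v i).1 - c.1).natAbs)) ∧
          (∀ v : ℤ → V, IsBigeodesic (fun e => t e ω) v → ∀ c : V,
            (∃ᶠ i in atTop, f ((v i).1 - c.1).natAbs < ((v i).2 - c.2).natAbs) ∧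
            (∃ᶠ i in atTop, f ((v i).2 - c.2).natAbs < ((v i).1 - c.1).natAbs) ∧
            (∃ᶠ i in atBot, f ((v i).1 - c.1).natAbs < ((v i).2 - c.2).natAbs) ∧
            (∃ᶠ i in atBot, f ((v i).2 - c.2).natAbs < ((v i).1 - c.1).natAbs)) := by
  obtain ⟨f, hf, h⟩ := main hG0 hGa
  refine ⟨f, hf, fun Ω _ P _ t hm hl hi => ?_⟩
  filter_upwards [h P t hm hl hi] with ω hω
  refine ⟨hω, fun v hv c => ?_⟩
  obtain ⟨h1, h2⟩ := ends hv
  obtain ⟨h3, h4⟩ := hω _ h1 c
  obtain ⟨h5, h6⟩ := hω _ h2 c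
  have hcast : Tendsto (fun i : ℕ => (i : ℤ)) atTop atTop := tendsto_natCast_atTop_atTop
  have hneg : Tendsto (fun i : ℕ => -(i : ℤ)) atTop atBot :=
    tendsto_neg_atTop_atBot.comp hcast
  exact ⟨hcast.frequently h3, hcast.frequently h4, hneg.frequently h5, hneg.frequently h6⟩

end Vale.Agent.Results.P158.CoordinateLines
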